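import Vale.Agent.P043.Three.Assembly
import Vale.Agent.P043.Three.Box
import Vale.Agent.P043.Three.Even
import Vale.Agent.P043.Three.Guard
import Vale.Agent.P043.Three.Parity

/-!
P043: the periodic tiling conjecture fails in `ℤ^d` and in `ℝ^d` for every `d ≥ 3`.
-/

namespace Vale.Agent.Results.P043.TilingFailsFromThree

open Vale.Agent.P043 Vale.Agent.P043.Three

theorem result : ∀ d : ℕ, 3 ≤ d →
    (∃ F : Finset (Fin d → ℤ), F.Nonempty ∧ IsAperiodicTile F) ∧ Euclid.HasAperiodicTile d :=
  fails_of_gadgets boxPin evenPin parityPin guardPin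

end Vale.Agent.Results.P043.TilingFailsFromThree
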